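import Vale.Agent.P219.Six.Bridge.Superpose

/-!
# A global flow of a smooth field depends smoothly on the initial point
-/

open Set Filter Topology MeasureTheory
open scoped ContDiff unitInterval

namespace Vale.Agent.P219.Six.Bridge

noncomputable section

variable {V : Type} [NormedAddCommGroup V] [NormedSpace ℝ V] [FiniteDimensional ℝ V]

/-- All trajectories of a field. -/
structure IsFlow (F : V → V) (Φ : ℝ → V → V) : Prop where
  smooth : ContDiff ℝ ∞ F
  zero : ∀ p, Φ 0 p = p
  deriv : ∀ p t, HasDerivAt (fun s => Φ s p) (F (Φ t p)) t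

variable {F : V → V} {Φ : ℝ → V → V}

/-- Solutions on an interval are unique. -/
theorem solution_unique (hF : ContDiff ℝ ∞ F) {c d : ℝ → V} {T δ : ℝ}
    (hc : ∀ t ∈ Icc 0 T, HasDerivAt c (δ • F (c t)) t)
    (hd : ∀ t ∈ Icc 0 T, HasDerivAt d (δ • F (d t)) t) (h0 : c 0 = d 0) : EqOn c d (Icc 0 T) := by
  have hcc : ContinuousOn c (Icc 0 T) := fun t ht => (hc t ht).continuousAt.continuousWithinAt
  have hdc : ContinuousOn d (Icc 0 T) := fun t ht => (hd t ht).continuousAt.continuousWithinAt
  obtain ⟨R, hR⟩ := ((isCompact_Icc.image_of_continuousOn hcc).union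
    (isCompact_Icc.image_of_continuousOn hdc)).isBounded.subset_closedBall 0
  obtain ⟨K, hK⟩ := (((hF.const_smul δ).of_le (show (1 : WithTop ℕ∞) ≤ ∞ by simp)).contDiffOn
    (s := Metric.closedBall (0 : V) R)).exists_lipschitzOnWith one_ne_zero
      (convex_closedBall (0 : V) R) (isCompact_closedBall _ _)
  exact ODE_solution_unique_of_mem_Icc_right (v := fun _ z => δ • F z)
    (s := fun _ => Metric.closedBall 0 R) (fun _ _ => hK) hcc
    (fun t ht => (hc t (Ico_subset_Icc_self ht)).hasDerivWithinAt)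
    (fun t ht => hR (Or.inl (mem_image_of_mem c (Ico_subset_Icc_self ht)))) hdc
    (fun t ht => (hd t (Ico_subset_Icc_self ht)).hasDerivWithinAt)
    (fun t ht => hR (Or.inr (mem_image_of_mem d (Ico_subset_Icc_self ht)))) h0

namespace IsFlow

variable (h : IsFlow F Φ)
include h

theorem add (p : V) {s t : ℝ} (ht : 0 ≤ t) : Φ (s + t) p = Φ t (Φ s p) :=
  solution_unique h.smooth (δ := 1) (c := fun r => Φ (s + r) p) (d := fun r => Φ r (Φ s p)) (T := t)
    (fun r _ => by simpa using (h.deriv p (s + r)).comp_const_add s r)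
    (fun r _ => by simpa using h.deriv (Φ s p) r) (by simp [h.zero]) (right_mem_Icc.2 ht)

/-- A short step is smooth. -/
theorem step {p : V} {δ M : ℝ} (hδ : 0 ≤ δ) (hM : ∀ s ∈ Icc 0 δ, ‖fderiv ℝ F (Φ s p)‖ ≤ M)
    (hδM : δ * M < 1) : ContDiffAt ℝ ∞ (Φ δ) p := by
  have hM0 : 0 ≤ M := (norm_nonneg _).trans (hM 0 ⟨le_rfl, hδ⟩)
  have hF1 : ContDiff ℝ 1 F := h.smooth.of_le (by simp)
  let γ₀ : Curves V := ⟨fun t => Φ (δ * (t : ℝ)) p,
    (continuous_iff_continuousAt.2 fun s => (h.deriv p s).continuousAt).comp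
      (continuous_const.mul continuous_subtype_val)⟩
  let cst : V →L[ℝ] Curves V := constC
  let G : V × Curves V → V × Curves V := fun q =>
    (q.1, q.2 - cst q.1 - δ • prim (post F hF1.continuous q.2))
  have hG : ContDiff ℝ ∞ G := contDiff_fst.prodMk ((contDiff_snd.sub
    ((ContinuousLinearMap.contDiff cst).comp contDiff_fst)).sub
    (((ContinuousLinearMap.contDiff (prim : Curves V →L[ℝ] Curves V)).comp
      ((contDiff_post h.smooth).comp contDiff_snd)).const_smul δ))
  let A : Curves V →L[ℝ] Curves V :=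
    δ • prim.comp (mult (post (fderiv ℝ F) (hF1.continuous_fderiv one_ne_zero) γ₀))
  have hA : ‖A‖ < 1 := by
    refine lt_of_le_of_lt ?_ hδM
    refine ContinuousLinearMap.opNorm_le_bound _ (mul_nonneg hδ hM0) fun w => ?_
    simp only [A, smul_apply, ContinuousLinearMap.comp_apply, norm_smul, Real.norm_of_nonneg hδ]
    rw [mul_assoc]
    refine mul_le_mul_of_nonneg_left ((ContinuousLinearMap.le_opNorm _ _).trans
      ((mul_le_of_le_one_left (norm_nonneg _) norm_prim_le).trans ?_)) hδ
    rw [ContinuousMap.norm_le _ (by positivity)]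
    intro t
    exact ContinuousLinearMap.le_of_opNorm_le_of_le _
      (hM _ ⟨mul_nonneg hδ t.2.1, mul_le_of_le_one_right hδ t.2.2⟩) (w.norm_coe_le_norm t)
  set u : (Curves V →L[ℝ] Curves V)ˣ := Units.oneSub A hA
  have hu : ∀ w, (u : Curves V →L[ℝ] Curves V) w = w - A w := fun w => by
    simp [u, Units.val_oneSub]
  have hu1 : ∀ w, (↑u⁻¹ : Curves V →L[ℝ] Curves V) ((u : Curves V →L[ℝ] Curves V) w) = w := fun w => by
    exact congrArg (fun L : Curves V →L[ℝ] Curves V => L w) u.inv_mul
  have hu2 : ∀ w, (u : Curves V →L[ℝ] Curves V) ((↑u⁻¹ : Curves V →L[ℝ] Curves V) w) = w := fun w => by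
    exact congrArg (fun L : Curves V →L[ℝ] Curves V => L w) u.mul_inv
  let G' : (V × Curves V) ≃L[ℝ] (V × Curves V) :=
    ContinuousLinearEquiv.equivOfInverse
      ((ContinuousLinearMap.fst ℝ V (Curves V)).prod
        ((u : Curves V →L[ℝ] Curves V).comp (ContinuousLinearMap.snd ℝ V (Curves V)) -
          cst.comp (ContinuousLinearMap.fst ℝ V (Curves V))))
      ((ContinuousLinearMap.fst ℝ V (Curves V)).prod
        ((↑u⁻¹ : Curves V →L[ℝ] Curves V).comp (ContinuousLinearMap.snd ℝ V (Curves V) +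
          cst.comp (ContinuousLinearMap.fst ℝ V (Curves V)))))
      (fun q => by simp [hu1]) (fun q => by simp [hu2])
  have hG' : HasFDerivAt G (G' : V × Curves V →L[ℝ] V × Curves V) (p, γ₀) := by
    have hp : HasFDerivAt (fun q : V × Curves V => prim (post F hF1.continuous q.2))
        ((prim.comp (mult (post (fderiv ℝ F) (hF1.continuous_fderiv one_ne_zero) γ₀))).comp
          (ContinuousLinearMap.snd ℝ V (Curves V))) (p, γ₀) :=
      HasFDerivAt.comp (g := fun w => prim (post F hF1.continuous w)) (f := Prod.snd) (p, γ₀)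
        ((prim : Curves V →L[ℝ] Curves V).hasFDerivAt.comp γ₀ (hasFDerivAt_post hF1 γ₀))
        hasFDerivAt_snd
    refine (hasFDerivAt_fst.prodMk ((hasFDerivAt_snd.sub (cst.hasFDerivAt.comp (p, γ₀)
      hasFDerivAt_fst)).sub (hp.const_smul δ))).congr_fderiv ?_
    refine ContinuousLinearMap.ext fun q => ?_
    simp [G', hu, A]
    abel
  have hsol : G (p, γ₀) = (p, 0) := by
    refine Prod.ext rfl ?_
    ext t
    have hd : ∀ s : ℝ, HasDerivAt (fun r => Φ (δ * r) p) (δ • F (Φ (δ * s) p)) s := fun s => by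
      simpa [Function.comp_def] using (h.deriv p (δ * s)).scomp s ((hasDerivAt_id s).const_mul δ)
    have hint := intervalIntegral.integral_eq_sub_of_hasDerivAt (fun s _ => hd s)
      (((h.smooth.continuous.comp (continuous_iff_continuousAt.2 fun s => (hd s).continuousAt)).const_smul
        δ).intervalIntegrable 0 (t : ℝ))
    rw [intervalIntegral.integral_smul] at hint
    have e : ∫ s in (0 : ℝ)..(t : ℝ), IccExtend zero_le_one (post F hF1.continuous γ₀) s =
        ∫ s in (0 : ℝ)..(t : ℝ), F (Φ (δ * s) p) := intervalIntegral.integral_congr fun s hs => by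
      rw [uIcc_of_le t.2.1] at hs
      simp only [IccExtend_of_mem _ _ ⟨hs.1, hs.2.trans t.2.2⟩]
      rfl
    simp only [G, ContinuousMap.sub_apply, ContinuousMap.smul_apply, prim_apply, e, hint]
    simp [γ₀, cst, constC_apply, h.zero]
  have hat : ContDiffAt ℝ ∞ G (p, γ₀) := hG.contDiffAt
  set loc := hat.localInverse hG' (by simp)
  have hloc : ContDiffAt ℝ ∞ loc (G (p, γ₀)) := hat.to_localInverse hG' (by simp)
  set γ : V → Curves V := fun a => (loc (a, 0)).2
  have hγ : ContDiffAt ℝ ∞ γ p := by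
    rw [hsol] at hloc
    exact contDiffAt_snd.comp p (ContDiffAt.comp (f := fun a : V => (a, (0 : Curves V))) p hloc
      (contDiffAt_id.prodMk contDiffAt_const))
  have hinv : ∀ᶠ a in 𝓝 p, G (loc (a, 0)) = (a, 0) := by
    have h1 := (hat.hasStrictFDerivAt' hG' (by simp)).eventually_right_inverse
    rw [hsol] at h1
    have hc : Tendsto (fun a : V => (a, (0 : Curves V))) (𝓝 p) (𝓝 (p, 0)) :=
      (continuous_id.prodMk continuous_const).tendsto p
    exact hc.eventually h1
  have heq : Φ δ =ᶠ[𝓝 p] fun a => γ a ⟨1, zero_le_one, le_rfl⟩ := by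
    filter_upwards [hinv] with a ha
    obtain ⟨ha1, ha2⟩ := Prod.ext_iff.1 ha
    simp only [G] at ha1 ha2
    rw [ha1] at ha2
    set c := γ a
    have hc : ∀ t : I, c t = a + δ • ∫ s in (0 : ℝ)..(t : ℝ),
        IccExtend zero_le_one (post F hF1.continuous c) s := fun t => by
      have := congrArg (fun z : Curves V => z t) ha2
      simp only [ContinuousMap.sub_apply,
        ContinuousMap.zero_apply, cst, sub_sub, sub_eq_zero] at this
      exact this
    set e : ℝ → V := fun t =>
      a + δ • ∫ s in (0 : ℝ)..t, IccExtend zero_le_one (post F hF1.continuous c) s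
    have hed : ∀ t ∈ Icc (0 : ℝ) 1, HasDerivAt e (δ • F (e t)) t := fun t ht => by
      have hcont : Continuous (IccExtend zero_le_one (post F hF1.continuous c)) :=
        (post F hF1.continuous c).continuous.Icc_extend'
      refine (((hcont.integral_hasStrictDerivAt 0 t).hasDerivAt).const_smul δ |>.const_add a).congr_deriv ?_
      rw [IccExtend_of_mem _ _ ht, post_apply, hc ⟨t, ht⟩]
    have hq : ∀ t ∈ Icc (0 : ℝ) 1, HasDerivAt (fun r => Φ (δ * r) a) (δ • F (Φ (δ * t) a)) t :=
      fun t _ => by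
        simpa [Function.comp_def] using (h.deriv a (δ * t)).scomp t ((hasDerivAt_id t).const_mul δ)
    have hfin := solution_unique h.smooth hq hed (by simp [e, h.zero])
      (right_mem_Icc.2 zero_le_one)
    simp only [mul_one] at hfin
    rw [hfin, hc ⟨1, zero_le_one, le_rfl⟩]
  refine ContDiffAt.congr_of_eventuallyEq ?_ heq
  exact (ContinuousLinearMap.contDiff
    (ContinuousMap.evalCLM ℝ (⟨1, zero_le_one, le_rfl⟩ : I))).contDiffAt.comp p hγ

/-- The time one map of a flow is smooth. -/
theorem contDiff_one : ContDiff ℝ ∞ (Φ 1) := by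
  refine contDiff_iff_contDiffAt.2 fun p => ?_
  have hc : Continuous fun s => fderiv ℝ F (Φ s p) :=
    ((h.smooth.continuous_fderiv (by simp)).comp
      (continuous_iff_continuousAt.2 fun s => (h.deriv p s).continuousAt))
  obtain ⟨M, hM⟩ := (isCompact_Icc (a := (0 : ℝ)) (b := 1)).exists_bound_of_continuousOn hc.continuousOn
  obtain ⟨N, hN⟩ := exists_nat_gt (max M 0)
  have hN0 : (0 : ℝ) < N := (le_max_right M 0).trans_lt hN
  set δ : ℝ := 1 / N
  have hδ : 0 ≤ δ := by positivity
  have key : ∀ k : ℕ, k ≤ N → ContDiffAt ℝ ∞ (Φ (k * δ)) p := by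
    intro k
    induction k with
    | zero =>
      intro _
      simp only [Nat.cast_zero, zero_mul]
      rw [show Φ 0 = id from funext h.zero]
      exact contDiffAt_id
    | succ k ih =>
      intro hk
      rw [show Φ ((k + 1 : ℕ) * δ) = Φ δ ∘ Φ (k * δ) from funext fun a => by
        simp only [Function.comp_apply]; rw [← h.add a hδ]; push_cast; ring_nf]
      refine ContDiffAt.comp p (h.step (M := max M 0) hδ (fun s hs => ?_) ?_) (ih (Nat.le_of_succ_le hk))
      · rw [← h.add p hs.1]
        refine (hM _ ⟨by have := hs.1; positivity, ?_⟩).trans (le_max_left _ _)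
        have h1 : ((k : ℝ) + 1) * δ ≤ 1 := by
          rw [mul_one_div, div_le_one hN0]; exact_mod_cast hk
        linarith [hs.2]
      · simp only [δ]
        rw [one_div, ← div_eq_inv_mul, div_lt_one hN0]; exact hN
  have := key N le_rfl
  rwa [show (N : ℝ) * δ = 1 from mul_one_div_cancel hN0.ne'] at this

end IsFlow

end

end Vale.Agent.P219.Six.Bridge
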