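import Vale.Agent.P219.Six.Geo.Basic
import Vale.Agent.P219.Six.Bridge.Flow
import Vale.Agent.P219.Six.Bridge.SmoothFrame

/-!
# Normal charts at every point can be chosen jointly smooth
-/

open MeasureTheory Set Filter Topology
open scoped ENNReal ContDiff RealInnerProductSpace

set_option maxSynthPendingDepth 3

namespace Vale.Agent.P219.Six.Bridge

open Vale.Agent.P219 Vale.Agent.P219.Univ

noncomputable section

variable {n : ℕ} {g : MetricField n}

/-- Global normal coordinates at each point give jointly smooth ones. -/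
theorem exists_jointCharts (hg : IsMetric g) (hc : NormalCharts g) :
    ∃ Exp Log : Space n → Space n → Space n, JointCharts g Exp Log := by
  choose E F hE hF hFE hEF hE0 hiso hgeo using hc
  have hch : ∀ o, Geo.Chart g o (E o) := fun o => ⟨hE o, hE0 o, hiso o, hgeo o⟩
  have hF0 : ∀ o, F o o = 0 := fun o => by
    conv_lhs => arg 2; rw [← hE0 o]
    exact hFE o 0
  have hEF' : ∀ o z w, fderiv ℝ (E o) (F o z) (fderiv ℝ (F o) z w) = w := fun o z w => by
    have h1 : HasFDerivAt (E o ∘ F o) ((fderiv ℝ (E o) (F o z)).comp (fderiv ℝ (F o) z)) z :=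
      ((hch o).hasFDerivAt _).comp z ((hF o).differentiable (by simp) z).hasFDerivAt
    rw [show E o ∘ F o = id from funext (hEF o)] at h1
    exact congrFun (congrArg DFunLike.coe (h1.unique (hasFDerivAt_id z))) w
  -- the geodesic with position and velocity `p`
  set iv : Space n × Space n → Space n := fun p => fderiv ℝ (F p.1) p.1 p.2
  set Φ : ℝ → Space n × Space n → Space n × Space n := fun t p =>
    (E p.1 (t • iv p), Geo.Y (E p.1) (iv p) (iv p) t)
  have hflow : IsFlow (sprayF g) Φ := by
    refine ⟨contDiff_snd.prodMk (((contDiff_gam hg).comp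
      (contDiff_fst.prodMk (contDiff_snd.prodMk contDiff_snd))).neg), fun p => ?_, fun p t => ?_⟩
    · refine Prod.ext (by simp [Φ, hE0]) ?_
      have := hEF' p.1 p.1 p.2
      rw [hF0] at this
      simpa [Φ, iv, Geo.Y] using this
    · exact ((hch p.1).deriv_ray (iv p) t).prodMk
        (((hch p.1).deriv_Y (iv p) (iv p) t).congr_deriv ((hch p.1).geo_eq (iv p) t))
  have hΦ : ContDiff ℝ ∞ (Φ 1) := hflow.contDiff_one
  obtain ⟨A, hAs, hA⟩ := exists_smooth_frame hg
  -- the chart rotated into the frame
  have hR : ∀ x, ∃ R : Space n ≃L[ℝ] Space n, (∀ u v, inner ℝ (R u) (R v) = inner ℝ u v) ∧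
      (∀ u, fderiv ℝ (E x) 0 (R u) = A x u) ∧ ∀ u, R u = iv (x, A x u) := by
    intro x
    set R₀ : Space n →L[ℝ] Space n := (fderiv ℝ (F x) x).comp (A x)
    have hd : ∀ u, fderiv ℝ (E x) 0 (R₀ u) = A x u := fun u => by
      have := hEF' x x (A x u)
      rwa [hF0] at this
    have hi : ∀ u v, inner ℝ (R₀ u) (R₀ v) = inner ℝ u v := fun u v => by
      rw [← hiso x, hd, hd, hA]
    have hinj : Function.Injective (R₀ : Space n →ₗ[ℝ] Space n) := by
      refine (injective_iff_map_eq_zero _).2 fun v hv => ?_
      have := hi v v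
      rw [show R₀ v = 0 from hv] at this
      simpa using this.symm
    exact ⟨(LinearEquiv.ofBijective (R₀ : Space n →ₗ[ℝ] Space n)
      ⟨hinj, LinearMap.injective_iff_surjective.1 hinj⟩).toContinuousLinearEquiv, hi, hd, fun u => rfl⟩
  choose R hRi hRd hRv using hR
  set Exp : Space n → Space n → Space n := fun x u => E x (R x u) with hExp
  set Log : Space n → Space n → Space n := fun x z => (R x).symm (F x z) with hLog
  have hright : ∀ o z, Exp o (Log o z) = z := fun o z => by simp [hExp, hLog, hEF o z]
  have hleft : ∀ o u, Log o (Exp o u) = u := fun o u => by simp [hExp, hLog, hFE o (R o u)]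
  have hsm : ∀ o, ContDiff ℝ ∞ (Exp o) := fun o =>
    (hE o).comp (R o : Space n →L[ℝ] Space n).contDiff
  have hexp : ContDiff ℝ ∞ fun p : Space n × Space n => Exp p.1 p.2 := by
    have e : (fun p : Space n × Space n => Exp p.1 p.2) =
        fun p => (Φ 1 (p.1, A p.1 p.2)).1 := funext fun p => by
      simp only [Φ, one_smul, hExp, hRv]
    rw [e]
    exact contDiff_fst.comp
      (hΦ.comp (contDiff_fst.prodMk ((hAs.comp contDiff_fst).clm_apply contDiff_snd)))
  set T : Space n × Space n → Space n × Space n := fun p => (p.1, Exp p.1 p.2)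
  have hT : ContDiff ℝ ∞ T := contDiff_fst.prodMk hexp
  have hlog : ContDiff ℝ ∞ fun q : Space n × Space n => Log q.1 q.2 := by
    refine contDiff_iff_contDiffAt.2 fun q => ?_
    set p : Space n × Space n := (q.1, Log q.1 q.2)
    have hTp : T p = q := Prod.ext rfl (hright q.1 q.2)
    have hd : HasFDerivAt T (fderiv ℝ T p) p := ((hT.differentiable (by simp)) p).hasFDerivAt
    have hinj : Function.Injective (fderiv ℝ T p : Space n × Space n →ₗ[ℝ] Space n × Space n) := by
      refine (injective_iff_map_eq_zero _).2 fun v hv => ?_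
      have hv' : fderiv ℝ T p v = 0 := hv
      have h1 : (fderiv ℝ T p v).1 = v.1 := by
        have := (hd.fst).unique hasFDerivAt_fst
        exact congrArg (fun L : Space n × Space n →L[ℝ] Space n => L v) this
      rw [hv'] at h1
      have hv2 : v = (0, v.2) := Prod.ext h1.symm rfl
      have h2 : HasFDerivAt (fun u => Exp p.1 u)
          ((ContinuousLinearMap.snd ℝ (Space n) (Space n)).comp ((fderiv ℝ T p).comp
            (ContinuousLinearMap.inr ℝ (Space n) (Space n)))) p.2 :=
        (hd.comp p.2 ((hasFDerivAt_const p.1 p.2).prodMk (hasFDerivAt_id p.2))).snd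
      have h3 : fderiv ℝ (Exp p.1) p.2 v.2 = 0 := by
        rw [h2.fderiv]
        simp [← hv2, hv']
      have hFd : HasFDerivAt (Log p.1 ∘ Exp p.1)
          ((fderiv ℝ (Log p.1) (Exp p.1 p.2)).comp (fderiv ℝ (Exp p.1) p.2)) p.2 :=
        ((((R p.1).symm : Space n →L[ℝ] Space n).contDiff.comp (hF p.1)).differentiable (by simp)
          (Exp p.1 p.2)).hasFDerivAt.comp p.2 ((hsm p.1).differentiable (by simp) p.2).hasFDerivAt
      rw [show Log p.1 ∘ Exp p.1 = id from funext (hleft p.1)] at hFd
      have h4 := congrArg (fun L : Space n →L[ℝ] Space n => L v.2) (hFd.unique (hasFDerivAt_id p.2))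
      simp only [ContinuousLinearMap.comp_apply, h3, map_zero, ContinuousLinearMap.id_apply] at h4
      rw [hv2, ← h4]; rfl
    set Te := (LinearEquiv.ofBijective (fderiv ℝ T p : Space n × Space n →ₗ[ℝ] Space n × Space n)
      ⟨hinj, LinearMap.injective_iff_surjective.1 hinj⟩).toContinuousLinearEquiv
    have hTe : HasFDerivAt T (Te : Space n × Space n →L[ℝ] Space n × Space n) p :=
      hd.congr_fderiv (ContinuousLinearMap.ext fun _ => rfl)
    have hat : ContDiffAt ℝ ∞ T p := hT.contDiffAt
    have hloc := hat.to_localInverse hTe (by simp)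
    have hev := (hat.hasStrictFDerivAt' hTe (by simp)).eventually_right_inverse
    rw [hTp] at hloc hev
    refine (contDiffAt_snd.comp q hloc).congr_of_eventuallyEq ?_
    filter_upwards [hev] with r hr
    set z := hat.localInverse hTe (by simp) r
    obtain ⟨h1, h2⟩ := Prod.ext_iff.1 (show T z = r from hr)
    simp only [T] at h1 h2
    show Log r.1 r.2 = z.2
    rw [← h1, ← h2, hleft]
  have hRd0 : ∀ o u, fderiv ℝ (Exp o) 0 u = A o u := fun o u => by
    have e : HasFDerivAt (Exp o) ((fderiv ℝ (E o) 0).comp (R o : Space n →L[ℝ] Space n)) 0 := by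
      refine HasFDerivAt.comp (0 : Space n) (g := E o) ?_ (R o : Space n →L[ℝ] Space n).hasFDerivAt
      simpa using (hch o).hasFDerivAt 0
    rw [e.fderiv]
    exact hRd o u
  refine ⟨Exp, Log, hexp, hlog, hleft, hright, fun o => by simp [hExp, hE0], fun o u v => ?_,
    fun o u t => ?_⟩
  · rw [hRd0, hRd0, hA]
  · have e : (fun s : ℝ => Exp o (s • u)) = fun s : ℝ => E o (s • R o u) := by
      funext s; simp [hExp]
    rw [e, show Exp o (t • u) = E o (t • R o u) by simp [hExp]]
    exact hgeo o (R o u) t

end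

end Vale.Agent.P219.Six.Bridge
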