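import Mathlib
import Vale.Agent.P219.Univ.PerBasics

/-!
# A continuous orthonormal frame of a metric on `ℝ^n`, by Gram-Schmidt
-/

open Set
open scoped ContDiff RealInnerProductSpace

set_option maxSynthPendingDepth 3

namespace Vale.Agent.P219.Six.Bridge

open Vale.Agent.P219 Vale.Agent.P219.Univ

noncomputable section

variable {n : ℕ} {g : MetricField n}

theorem continuous_g (hg : IsMetric g) {a b : Space n → Space n} (ha : Continuous a)
    (hb : Continuous b) : Continuous fun x => g x (a x) (b x) :=
  (hg.smooth.continuous.clm_apply ha).clm_apply hb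

theorem exists_orthonormal (hg : IsMetric g) : ∀ m : ℕ, m ≤ n → ∃ f : ℕ → Space n → Space n,
    (∀ i < m, Continuous (f i)) ∧
      (∀ i < m, ∀ (k : Fin n), i < (k : ℕ) → ∀ x, f i x k = 0) ∧
      ∀ i < m, ∀ j < m, ∀ x, g x (f i x) (f j x) = if i = j then 1 else 0 := by
  intro m
  induction m with
  | zero => exact fun _ => ⟨fun _ _ => 0, by simp, by simp, by simp⟩
  | succ m ih =>
    intro hm
    obtain ⟨f, hfc, hft, hfo⟩ := ih (by omega)
    set e : Space n := EuclideanSpace.single ⟨m, hm⟩ (1 : ℝ)
    set u : Space n → Space n := fun x => e - ∑ i ∈ Finset.range m, g x e (f i x) • f i x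
    have huc : Continuous u := continuous_const.sub (continuous_finsetSum _ fun i hi =>
      (continuous_g hg continuous_const (hfc i (Finset.mem_range.1 hi))).smul
        (hfc i (Finset.mem_range.1 hi)))
    have hcoord : ∀ x (k : Fin n), m ≤ (k : ℕ) → u x k = if (k : ℕ) = m then 1 else 0 := by
      intro x k hk
      have hs : ∀ i ∈ Finset.range m, (g x e (f i x) • f i x) k = 0 := fun i hi => by
        simp [hft i (Finset.mem_range.1 hi) k (by have := Finset.mem_range.1 hi; omega) x]
      simp only [u, PiLp.sub_apply, WithLp.ofLp_sum, Finset.sum_apply]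
      rw [Finset.sum_eq_zero hs]
      simp [e, PiLp.single_apply, Fin.ext_iff]
    have hne : ∀ x, u x ≠ 0 := fun x hx => by
      have := hcoord x ⟨m, hm⟩ le_rfl
      simp [hx] at this
    have horth : ∀ x, ∀ j < m, g x (u x) (f j x) = 0 := by
      intro x j hj
      simp only [u, map_sub, map_sum, map_smul, sub_apply,
        sum_apply, smul_apply, smul_eq_mul]
      rw [Finset.sum_congr rfl fun i hi => by
        rw [hfo i (Finset.mem_range.1 hi) j hj x]]
      simp [hj]
    set w : Space n → Space n := fun x => (gNorm g x (u x))⁻¹ • u x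
    have hpos : ∀ x, 0 < gNorm g x (u x) := fun x => Real.sqrt_pos.2 (hg.pos x _ (hne x))
    have hwc : Continuous w :=
      ((Real.continuous_sqrt.comp (continuous_g hg huc huc)).inv₀ fun x => (hpos x).ne').smul huc
    have hwu : ∀ x, ∀ j < m, g x (w x) (f j x) = 0 := fun x j hj => by
      simp [w, horth x j hj]
    have hww : ∀ x, g x (w x) (w x) = 1 := fun x => by
      simp only [w, map_smul, smul_apply, smul_eq_mul]
      rw [← gNorm_sq hg x (u x)]
      field_simp [(hpos x).ne']
    refine ⟨fun i => if i < m then f i else w, fun i hi => ?_, fun i hi k hk x => ?_,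
      fun i hi j hj x => ?_⟩
    · beta_reduce
      split_ifs with h
      · exact hfc i h
      · exact hwc
    · beta_reduce
      split_ifs with h
      · exact hft i h k hk x
      · simp [w, hcoord x k (by omega), show (k : ℕ) ≠ m by omega]
    · beta_reduce
      split_ifs with h1 h2 h3 h4 h5 h6
      all_goals first
        | (exact (hfo i h1 j h2 x).trans (by simp [*]))
        | (obtain rfl : i = j := by omega); exact hww x
        | exact (hg.symm x _ _).trans (hwu x i h1)
        | exact hwu x j (by assumption)
        | omega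

/-- A continuous orthonormal frame. -/
theorem exists_frame (hg : IsMetric g) :
    ∃ A : Space n → Space n →L[ℝ] Space n,
      (∀ u, Continuous fun x => A x u) ∧ ∀ x u v, g x (A x u) (A x v) = inner ℝ u v := by
  obtain ⟨f, hfc, -, hfo⟩ := exists_orthonormal hg n le_rfl
  refine ⟨fun x => ∑ i : Fin n, (EuclideanSpace.proj i).smulRight (f i x), fun u => ?_,
    fun x u v => ?_⟩
  · simp only [sum_apply, ContinuousLinearMap.smulRight_apply]
    exact continuous_finsetSum _ fun i _ => (hfc i i.2).const_smul (u i)
  · simp only [sum_apply, ContinuousLinearMap.smulRight_apply, map_sum,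
      map_smul, smul_apply, smul_eq_mul]
    simp only [hfo _ (Fin.is_lt _) _ (Fin.is_lt _) x, mul_ite, mul_one, mul_zero, Fin.val_inj,
      Finset.sum_ite_eq', Finset.mem_univ, if_true, PiLp.inner_apply, RCLike.inner_apply,
      conj_trivial]
    exact Finset.sum_congr rfl fun i _ => by simp [PiLp.proj_apply, mul_comm]

end

end Vale.Agent.P219.Six.Bridge
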