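import Mathlib
import Vale.Agent.P219.Univ.Geo
import Vale.Agent.P219.Univ.PerBasics

/-!
# The distance of two points from normal charts at every point

`rr F a z = ‖F a z‖` is shown to be symmetric, to obey the triangle inequality and to be jointly
continuous; the derivative of half its square is minus the initial velocity of the geodesic.
-/

open MeasureTheory Set Filter Topology
open scoped ENNReal ContDiff RealInnerProductSpace

set_option maxSynthPendingDepth 3

namespace Vale.Agent.P219.Six.Bridge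

open Vale.Agent.P219 Vale.Agent.P219.Univ

noncomputable section

variable {n : ℕ} {g : MetricField n} {E F : Space n → Space n → Space n} {κ : ℝ}

/-- Normal charts at all points, with the curvature bound. -/
structure Charts (g : MetricField n) (E F : Space n → Space n → Space n) (κ : ℝ) : Prop where
  hn : 2 ≤ n
  met : IsMetric g
  hκ : κ ≤ 0
  sec : SecBound g κ
  chart : ∀ o, Geo.Chart g o (E o)
  smoothF : ∀ o, ContDiff ℝ ∞ (F o)
  left : ∀ o, Function.LeftInverse (F o) (E o)
  right : ∀ o, Function.RightInverse (F o) (E o)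

/-- The distance. -/
def rr (F : Space n → Space n → Space n) (a z : Space n) : ℝ := ‖F a z‖

/-- Half the squared distance. -/
def psi2 (F : Space n → Space n → Space n) (a z : Space n) : ℝ := ‖F a z‖ ^ 2 / 2

variable (h : Charts g E F κ)
include h

theorem pot (a : Space n) : Pot g (Real.sqrt (-κ)) a (psi2 F a) :=
  pot_of_chart h.hn h.met h.hκ h.sec
    (fun o => ⟨E o, F o, (h.chart o).smooth, h.smoothF o, h.left o, h.right o, (h.chart o).zero,
      (h.chart o).iso, (h.chart o).geo⟩)
    (h.chart a) (h.smoothF a) (h.left a) (h.right a)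

theorem rr_self (a : Space n) : rr F a a = 0 := by
  have e : F a a = 0 := by
    have := h.left a 0
    rwa [(h.chart a).zero] at this
  simp [rr, e]

theorem abs_dpsi_le (a z w : Space n) :
    |fderiv ℝ (psi2 F a) z w| ≤ rr F a z * gNorm g z w := by
  rw [← gGrad_dual h.met (psi2 F a) z w]
  refine (abs_g_le h.met z _ _).trans (mul_le_mul_of_nonneg_right ?_ (gNorm_nonneg g z w))
  refine (sq_le_sq₀ (gNorm_nonneg g z _) (norm_nonneg (F a z))).1 ?_
  have := (pot h a).grad z
  simp only [psi2] at this ⊢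
  linarith

/-- The distance from `a` grows along a curve at most with its length. -/
theorem rr_curve (a : Space n) {γ γ' : ℝ → Space n} (hγ : ∀ t, HasDerivAt γ (γ' t) t) {L : ℝ}
    (hL : ∀ t ∈ Icc (0 : ℝ) 1, gNorm g (γ t) (γ' t) ≤ L) :
    rr F a (γ 1) ≤ rr F a (γ 0) + L := by
  refine le_of_forall_pos_le_add fun e he => ?_
  obtain ⟨s, hs⟩ : ∃ s : ℝ → ℝ, s = fun t => Real.sqrt (2 * psi2 F a (γ t) + e ^ 2) := ⟨_, rfl⟩
  have hpos : ∀ t, 0 < 2 * psi2 F a (γ t) + e ^ 2 := fun t => by
    have := (pot h a).nonneg (γ t)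
    positivity
  have hd : ∀ t, HasDerivAt s (2 * fderiv ℝ (psi2 F a) (γ t) (γ' t) /
      (2 * Real.sqrt (2 * psi2 F a (γ t) + e ^ 2))) t := fun t => by
    rw [hs]
    exact (((((pot h a).smooth.differentiable (by simp)) (γ t)).hasFDerivAt.comp_hasDerivAt t
      (hγ t)).const_mul 2 |>.add_const (e ^ 2)).sqrt (hpos t).ne'
  have hb : ‖s 1 - s 0‖ ≤ L := by
    refine norm_image_sub_le_of_norm_deriv_le_segment_01'
      (fun t _ => (hd t).hasDerivWithinAt) fun t ht => ?_
    have hq := Real.sqrt_pos.2 (hpos t)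
    have h1 : rr F a (γ t) ≤ Real.sqrt (2 * psi2 F a (γ t) + e ^ 2) :=
      Real.le_sqrt_of_sq_le (by simp only [rr, psi2]; linarith [sq_nonneg e])
    have h2 : |fderiv ℝ (psi2 F a) (γ t) (γ' t)| ≤
        Real.sqrt (2 * psi2 F a (γ t) + e ^ 2) * L :=
      (abs_dpsi_le h a _ _).trans (mul_le_mul h1 (hL t (Ico_subset_Icc_self ht))
        (gNorm_nonneg g _ _) hq.le)
    rw [Real.norm_eq_abs, mul_div_mul_left _ _ (two_ne_zero' ℝ), abs_div, abs_of_pos hq,
      div_le_iff₀ hq]
    linarith
  rw [Real.norm_eq_abs, abs_le] at hb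
  have h1 : rr F a (γ 1) ≤ s 1 := hs ▸ Real.le_sqrt_of_sq_le (by
    simp only [rr, psi2]; linarith [sq_nonneg e])
  have h0 : s 0 ≤ rr F a (γ 0) + e := by
    rw [hs]
    refine Real.sqrt_le_iff.2 ⟨add_nonneg (norm_nonneg _) he.le, ?_⟩
    simp only [rr, psi2]
    nlinarith [mul_nonneg (norm_nonneg (F a (γ 0))) he.le]
  linarith [hb.2]

/-- The distance from `a` along a geodesic from `b`. -/
theorem rr_ray (a b q : Space n) (s₀ s₁ : ℝ) :
    rr F a (E b (s₁ • q)) ≤ rr F a (E b (s₀ • q)) + |s₁ - s₀| * ‖q‖ := by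
  set γ : ℝ → Space n := fun t => E b ((s₀ + t * (s₁ - s₀)) • q)
  have hd : ∀ t, HasDerivAt γ ((s₁ - s₀) • Geo.Y (E b) q q (s₀ + t * (s₁ - s₀))) t := fun t => by
    have h1 : HasDerivAt (fun t => s₀ + t * (s₁ - s₀)) (s₁ - s₀) t := by
      simpa using ((hasDerivAt_id t).mul_const (s₁ - s₀)).const_add s₀
    exact ((h.chart b).deriv_ray q _).scomp t h1
  have := rr_curve h a hd (L := |s₁ - s₀| * ‖q‖) fun t _ => le_of_eq (by
    rw [gNorm_smul, gNorm, (h.chart b).speed h.met, real_inner_self_eq_norm_sq,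
      Real.sqrt_sq (norm_nonneg q)])
  simpa [γ] using this

theorem rr_triangle (a b z : Space n) : rr F a z ≤ rr F a b + rr F b z := by
  have := rr_ray h a b (F b z) 0 1
  simpa [(h.chart b).zero, h.right b z, rr] using this

theorem rr_symm (a z : Space n) : rr F a z = rr F z a := by
  suffices H : ∀ a z, rr F z a ≤ rr F a z from le_antisymm (H z a) (H a z)
  intro a z
  have := rr_ray h z a (F a z) 1 0
  simp only [zero_smul, one_smul, (h.chart a).zero, h.right a z, rr_self h z] at this
  simpa [rr] using this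

theorem rr_exp (a q : Space n) : rr F a (E a q) = ‖q‖ := by rw [rr, h.left a q]

/-- Locally the distance is at most a multiple of the Euclidean one. -/
theorem rr_le_dist (c : Space n) :
    ∃ C, 0 ≤ C ∧ ∀ a ∈ Metric.closedBall c 1, ∀ b ∈ Metric.closedBall c 1,
      rr F a b ≤ C * ‖b - a‖ := by
  obtain ⟨C, hC'⟩ := (isCompact_closedBall c 1).exists_bound_of_continuousOn
    (f := fun x => ‖g x‖) h.met.smooth.continuous.norm.continuousOn
  have hC : ∀ x ∈ Metric.closedBall c 1, ‖g x‖ ≤ C := fun x hx => (le_abs_self _).trans (hC' x hx)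
  refine ⟨Real.sqrt (max C 0), Real.sqrt_nonneg _, fun a ha b hb => ?_⟩
  set γ : ℝ → Space n := fun t => a + t • (b - a)
  have hd : ∀ t, HasDerivAt γ (b - a) t := fun t => Geo.hasDerivAt_line a (b - a) t
  have := rr_curve h a hd (L := Real.sqrt (max C 0) * ‖b - a‖) fun t ht => by
    have hm : γ t ∈ Metric.closedBall c 1 := by
      have := (convex_closedBall c (1 : ℝ)).add_smul_sub_mem ha hb ht
      simpa [γ] using this
    refine Real.sqrt_le_iff.2 ⟨by positivity, ?_⟩
    rw [mul_pow, Real.sq_sqrt (le_max_right C 0)]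
    have h1 := (le_abs_self _).trans ((g (γ t) (b - a)).le_opNorm (b - a))
    have h2 := (g (γ t)).le_opNorm (b - a)
    nlinarith [norm_nonneg (b - a), (hC _ hm).trans (le_max_left C 0), norm_nonneg (g (γ t))]
  simpa [γ, rr_self h a] using this

theorem continuous_rr : Continuous fun p : Space n × Space n => rr F p.1 p.2 := by
  refine continuous_iff_continuousAt.2 fun ⟨a, z⟩ => Metric.continuousAt_iff.2 fun ε hε => ?_
  obtain ⟨C, hC0, hC⟩ := rr_le_dist h a
  obtain ⟨D, hD0, hD⟩ := rr_le_dist h z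
  refine ⟨min 1 (ε / (C + D + 1)), lt_min one_pos (by positivity), fun {q} hq => ?_⟩
  obtain ⟨b, w⟩ := q
  rw [Prod.dist_eq, max_lt_iff] at hq
  obtain ⟨hb, hw⟩ := hq
  have hb1 : b ∈ Metric.closedBall a 1 := (hb.trans_le (min_le_left _ _)).le
  have hw1 : w ∈ Metric.closedBall z 1 := (hw.trans_le (min_le_left _ _)).le
  have e1 : rr F b a ≤ C * dist b a := by
    rw [dist_eq_norm, norm_sub_rev]; exact hC b hb1 a (Metric.mem_closedBall_self zero_le_one)
  have e2 : rr F z w ≤ D * dist w z := by
    rw [dist_eq_norm]; exact hD z (Metric.mem_closedBall_self zero_le_one) w hw1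
  have t1 := rr_triangle h b a w
  have t2 := rr_triangle h a z w
  have t3 := rr_triangle h a b z
  have t4 := rr_triangle h b w z
  have s1 := rr_symm h a b
  have s2 := rr_symm h w z
  have hb' := hb.trans_le (min_le_right _ _)
  have hw' := hw.trans_le (min_le_right _ _)
  rw [lt_div_iff₀ (by positivity)] at hb' hw'
  rw [Real.dist_eq, abs_lt]
  constructor <;> nlinarith [dist_nonneg (x := b) (y := a), dist_nonneg (x := w) (y := z)]

/-- The gradient of half the squared distance to `z` is minus the velocity towards `z`. -/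
theorem dpsi_eq (a z w : Space n) :
    fderiv ℝ (psi2 F z) a w = -g a (fderiv ℝ (E a) 0 (F a z)) w := by
  set q := F a z
  set v := fderiv ℝ (E a) 0 q
  set r := ‖q‖
  have hvv : g a v v = r ^ 2 := by
    rw [(h.chart a).iso, real_inner_self_eq_norm_sq]
  have hval : ∀ s ∈ Icc (0 : ℝ) 1, psi2 F z (E a (s • q)) = ((1 - s) * r) ^ 2 / 2 := by
    intro s hs
    have u := rr_ray h z a q 1 s
    rw [one_smul, show E a q = z from h.right a z, rr_self h, abs_sub_comm,
      abs_of_nonneg (by linarith [hs.2] : (0 : ℝ) ≤ 1 - s), zero_add] at u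
    have l := rr_triangle h a (E a (s • q)) z
    rw [rr_exp h, norm_smul, Real.norm_eq_abs, abs_of_nonneg hs.1, rr_symm h (E a (s • q)) z] at l
    have hr : rr F a z = r := rfl
    rw [psi2, show ‖F z (E a (s • q))‖ = (1 - s) * r from le_antisymm u (by
      change _ ≤ rr F z (E a (s • q)); linarith)]
  have hd1 : HasDerivWithinAt (fun s : ℝ => psi2 F z (E a (s • q)))
      (fderiv ℝ (psi2 F z) a v) (Icc 0 1) 0 := by
    have e := (((pot h z).smooth.differentiable (by simp)) (E a ((0 : ℝ) • q))).hasFDerivAt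
      |>.comp_hasDerivAt (0 : ℝ) ((h.chart a).deriv_ray q 0)
    simpa [Geo.Y, (h.chart a).zero, v, Function.comp_def] using e.hasDerivWithinAt
  have hd2 : HasDerivWithinAt (fun s : ℝ => ((1 - s) * r) ^ 2 / 2) (-r ^ 2) (Icc 0 1) 0 := by
    refine ((((hasDerivAt_id (0 : ℝ)).const_sub 1).mul_const r).pow 2 |>.div_const 2
      ).hasDerivWithinAt.congr_deriv ?_
    simp
    ring
  have hder : fderiv ℝ (psi2 F z) a v = -r ^ 2 :=
    UniqueDiffWithinAt.eq_deriv _ (uniqueDiffOn_Icc zero_lt_one 0 (by simp)) hd1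
      (hd2.congr (fun s hs => hval s hs) (hval 0 (by simp)))
  set G := gGrad g (psi2 F z) a
  have hGG : g a G G ≤ r ^ 2 := by
    have := (pot h z).grad a
    rw [gNorm_sq h.met] at this
    refine this.trans (le_of_eq ?_)
    have hs : ‖F z a‖ = r := rr_symm h z a
    rw [psi2, hs]; ring
  have hGv : g a G v = -r ^ 2 := (gGrad_dual h.met _ a v).trans hder
  have hzero : G + v = 0 := by
    by_contra hne
    have := h.met.pos a _ hne
    simp only [map_add, _root_.add_apply, h.met.symm a v G, hGv, hvv] at this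
    linarith
  rw [← gGrad_dual h.met (psi2 F z) a w, show gGrad g (psi2 F z) a = G from rfl,
    eq_neg_of_add_eq_zero_left hzero, map_neg, neg_apply]

end

end Vale.Agent.P219.Six.Bridge
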