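import Mathlib
import Vale.Agent.P219.Six.Bridge.Dist

/-!
# Joint continuity of the derivative of half the squared distance

Half the squared distance is semiconvex along coordinate lines, locally uniformly in both points,
and jointly continuous; hence its derivative is jointly continuous.
-/

open MeasureTheory Set Filter Topology
open scoped ENNReal ContDiff RealInnerProductSpace

set_option maxSynthPendingDepth 3

namespace Vale.Agent.P219.Six.Bridge

open Vale.Agent.P219 Vale.Agent.P219.Univ

noncomputable section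

variable {n : ℕ} {g : MetricField n} {E F : Space n → Space n → Space n} {κ : ℝ}
  (h : Charts g E F κ)
include h

theorem continuous_psi2 : Continuous fun p : Space n × Space n => psi2 F p.1 p.2 :=
  ((continuous_rr h).pow 2).div_const 2

/-- Semiconvexity along lines. -/
theorem semiconvex (a z w : Space n) {C : ℝ} {t : ℝ} (ht : 0 < t)
    (hC : ∀ s ∈ Icc 0 t, rr F a (z + s • w) * gNorm g (z + s • w) (gam g (z + s • w) w w) ≤ C) :
    fderiv ℝ (psi2 F a) z w ≤ (psi2 F a (z + t • w) - psi2 F a z) / t + C * t := by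
  have hs2 := (pot h a).smooth
  have hC0 : 0 ≤ C := (mul_nonneg (norm_nonneg (F a _)) (gNorm_nonneg g _ _)).trans
    (hC 0 ⟨le_rfl, ht.le⟩)
  have hD : ContDiff ℝ ∞ (fderiv ℝ (psi2 F a)) := hs2.fderiv_right le_rfl
  set f : ℝ → ℝ := fun s => psi2 F a (z + s • w)
  set f' : ℝ → ℝ := fun s => fderiv ℝ (psi2 F a) (z + s • w) w
  have h1 : ∀ s, HasDerivAt f (f' s) s := fun s =>
    (((hs2.differentiable (by simp)) _).hasFDerivAt).comp_hasDerivAt s (Geo.hasDerivAt_line z w s)
  have h2 : ∀ s, HasDerivAt f' (fderiv ℝ (fderiv ℝ (psi2 F a)) (z + s • w) w w) s := fun s => by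
    have := ((((hD.differentiable (by simp)) _).hasFDerivAt).comp_hasDerivAt s
      (Geo.hasDerivAt_line z w s)).clm_apply (hasDerivAt_const s w)
    exact this.congr_deriv (by simp)
  have h3 : ∀ s ∈ Icc 0 t, -C ≤ fderiv ℝ (fderiv ℝ (psi2 F a)) (z + s • w) w w := fun s hs => by
    have e1 := (pot h a).hess (z + s • w) w
    have e2 := g_nonneg h.met (z + s • w) w
    have e3 := (abs_le.1 ((abs_dpsi_le h a _ (gam g (z + s • w) w w)).trans (hC s hs))).1
    simp only [gHess] at e1
    linarith
  obtain ⟨c, hc, hc'⟩ := exists_hasDerivAt_eq_slope f f' ht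
    (fun s _ => (h1 s).continuousAt.continuousWithinAt) fun s _ => h1 s
  obtain ⟨d, hd, hd'⟩ := exists_hasDerivAt_eq_slope f' _ hc.1
    (fun s _ => (h2 s).continuousAt.continuousWithinAt) fun s _ => h2 s
  have hlow := h3 d ⟨hd.1.le, hd.2.le.trans hc.2.le⟩
  rw [hd', sub_zero, le_div_iff₀ hc.1] at hlow
  rw [sub_zero] at hc'
  have : C * c ≤ C * t := mul_le_mul_of_nonneg_left hc.2.le hC0
  simp only [f, f', zero_smul, add_zero] at hc' hlow
  linarith

theorem continuous_dpsi_dir (w : Space n) :
    Continuous fun p : Space n × Space n => fderiv ℝ (psi2 F p.1) p.2 w := by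
  -- one half: upper semicontinuity in every direction
  suffices H : ∀ (w : Space n) (p₀ : Space n × Space n), ∀ e > 0,
      ∀ᶠ p in 𝓝 p₀, fderiv ℝ (psi2 F p.1) p.2 w < fderiv ℝ (psi2 F p₀.1) p₀.2 w + e by
    refine continuous_iff_continuousAt.2 fun p₀ => Metric.tendsto_nhds.2 fun e he => ?_
    filter_upwards [H w p₀ e he, H (-w) p₀ e he] with p h1 h2
    simp only [map_neg] at h2
    rw [Real.dist_eq, abs_lt]
    constructor <;> linarith
  intro w p₀ e he
  obtain ⟨a, z⟩ := p₀
  have hcont : Continuous fun q : Space n × Space n × ℝ =>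
      rr F q.1 (q.2.1 + q.2.2 • w) * gNorm g (q.2.1 + q.2.2 • w) (gam g (q.2.1 + q.2.2 • w) w w) := by
    have hp : Continuous fun q : Space n × Space n × ℝ => q.2.1 + q.2.2 • w := by fun_prop
    have hG : Continuous fun y : Space n => gam g y w w :=
      (contDiff_gam h.met).continuous.comp (by fun_prop : Continuous fun y : Space n => (y, w, w))
    have hN : Continuous fun y : Space n => gNorm g y (gam g y w w) :=
      Real.continuous_sqrt.comp ((h.met.smooth.continuous.clm_apply hG).clm_apply hG)
    exact ((continuous_rr h).comp (continuous_fst.prodMk hp)).mul (hN.comp hp)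
  obtain ⟨C, hC⟩ := ((isCompact_closedBall a 1).prod ((isCompact_closedBall z 1).prod
    (isCompact_Icc (a := (0 : ℝ)) (b := 1)))).exists_bound_of_continuousOn hcont.continuousOn
  have hC0 : 0 ≤ C := (norm_nonneg _).trans (hC (a, z, 0) ⟨by simp, by simp, by simp⟩)
  set φ := fderiv ℝ (psi2 F a) z w
  have hslope : HasDerivAt (fun s : ℝ => psi2 F a (z + s • w)) φ 0 := by
    have := ((((pot h a).smooth.differentiable (by simp)) (z + (0 : ℝ) • w)).hasFDerivAt
      ).comp_hasDerivAt (0 : ℝ) (Geo.hasDerivAt_line z w 0)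
    simpa [φ, Function.comp_def] using this
  have hev : ∀ᶠ t in 𝓝[>] (0 : ℝ), (psi2 F a (z + t • w) - psi2 F a z) / t + C * t < φ + e := by
    have t1 : Tendsto (fun t : ℝ => (psi2 F a (z + t • w) - psi2 F a z) / t) (𝓝[>] 0) (𝓝 φ) := by
      refine (hslope.tendsto_slope_zero_right).congr fun t => ?_
      simp [div_eq_inv_mul]
    have t2 : Tendsto (fun t : ℝ => C * t) (𝓝[>] 0) (𝓝 0) := by
      exact ((continuous_const.mul continuous_id).tendsto' (0 : ℝ) 0 (mul_zero C)).mono_left
        nhdsWithin_le_nhds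
    exact (t1.add t2).eventually_lt_const (by linarith)
  obtain ⟨t, ht1, ht⟩ := (hev.and (Ioo_mem_nhdsGT (zero_lt_one' ℝ))).exists
  have hc : ContinuousAt (fun p : Space n × Space n =>
      (psi2 F p.1 (p.2 + t • w) - psi2 F p.1 p.2) / t + C * t) (a, z) :=
    ((((continuous_psi2 h).comp (by fun_prop : Continuous fun p : Space n × Space n =>
      (p.1, p.2 + t • w))).sub (continuous_psi2 h)).div_const t |>.add continuous_const).continuousAt
  filter_upwards [hc.eventually_lt_const ht1, prod_mem_nhds (Metric.closedBall_mem_nhds a one_pos)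
    (Metric.closedBall_mem_nhds z one_pos)] with p hp hball
  refine lt_of_le_of_lt (semiconvex h p.1 p.2 w ht.1 fun s hs => ?_) hp
  exact (le_abs_self _).trans (hC (p.1, p.2, s) ⟨hball.1, hball.2, hs.1, hs.2.trans ht.2.le⟩)

theorem continuous_dpsi :
    Continuous fun p : Space n × Space n => fderiv ℝ (psi2 F p.1) p.2 :=
  continuous_clm_apply.2 fun w => continuous_dpsi_dir h w

end

end Vale.Agent.P219.Six.Bridge
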