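import Mathlib

/-!
# Superposition and integration operators on continuous curves
-/

open Set Filter Topology MeasureTheory
open scoped ContDiff unitInterval Uniformity

namespace Vale.Agent.P219.Six.Bridge

noncomputable section

variable {V W : Type} [NormedAddCommGroup V] [NormedSpace ℝ V] [NormedAddCommGroup W]
  [NormedSpace ℝ W]

/-- Continuous curves on the unit interval. -/
abbrev Curves (V : Type) [NormedAddCommGroup V] : Type := C(I, V)

/-- Pointwise application of a curve of linear maps. -/
def mult : Curves (V →L[ℝ] W) →L[ℝ] Curves V →L[ℝ] Curves W :=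
  LinearMap.mkContinuous₂
    (LinearMap.mk₂ ℝ (fun A h => (⟨fun t => A t (h t), A.continuous.clm_apply h.continuous⟩ : Curves W))
      (fun A A' h => by ext t; simp) (fun c A h => by ext t; simp) (fun A h h' => by ext t; simp)
      fun c A h => by ext t; simp)
    1 fun A h => by
      rw [one_mul, ContinuousMap.norm_le _ (by positivity)]
      intro t
      exact (A t).le_of_opNorm_le_of_le (A.norm_coe_le_norm t) (h.norm_coe_le_norm t)

theorem mult_apply (A : Curves (V →L[ℝ] W)) (h : Curves V) (t : I) : mult A h t = A t (h t) := rfl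

/-- Composition of a curve with a continuous map. -/
def post (F : V → W) (hF : Continuous F) (γ : Curves V) : Curves W :=
  (⟨F, hF⟩ : C(V, W)).comp γ

theorem post_apply (F : V → W) (hF : Continuous F) (γ : Curves V) (t : I) :
    post F hF γ t = F (γ t) := rfl

theorem hasFDerivAt_post {F : V → W} (hF : ContDiff ℝ 1 F) (γ : Curves V) :
    HasFDerivAt (post F hF.continuous)
      (mult (post (fderiv ℝ F) (hF.continuous_fderiv one_ne_zero) γ)) γ := by
  refine HasFDerivAtFilter.of_isLittleO (Asymptotics.isLittleO_iff.2 fun ε hε => ?_)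
  have hu := (isCompact_range γ.continuous).uniformContinuousAt_of_continuousAt (fderiv ℝ F)
    (fun z _ => (hF.continuous_fderiv one_ne_zero).continuousAt) (Metric.dist_mem_uniformity hε)
  obtain ⟨δ, hδ, hδu⟩ := Metric.mem_uniformity_dist.1 hu
  filter_upwards [prod_mem_prod (Metric.ball_mem_nhds γ hδ) (mem_pure.2 (mem_singleton γ))] with p hp
  obtain ⟨hp1, hp2⟩ := hp
  rw [mem_singleton_iff] at hp2
  rw [hp2, ContinuousMap.norm_le _ (by positivity)]
  intro t
  have hd : dist (p.1 t) (γ t) < δ := (ContinuousMap.dist_apply_le_dist t).trans_lt hp1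
  have hb : ∀ z ∈ Metric.ball (γ t) δ, ‖fderiv ℝ F z - fderiv ℝ F (γ t)‖ ≤ ε := fun z hz => by
    have := hδu (a := γ t) (b := z) (by rw [dist_comm]; exact hz) (mem_range_self t)
    rw [mem_ofPred_eq, dist_comm, dist_eq_norm] at this
    exact this.le
  have h := Convex.norm_image_sub_le_of_norm_hasFDerivWithin_le' (φ := fderiv ℝ F (γ t))
    (fun z _ => ((hF.differentiable one_ne_zero) z).hasFDerivAt.hasFDerivWithinAt) hb
    (convex_ball (γ t) δ) (Metric.mem_ball_self hδ) (Metric.mem_ball.2 hd)
  simp only [ContinuousMap.sub_apply, mult_apply, post_apply]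
  refine h.trans (mul_le_mul_of_nonneg_left ?_ hε.le)
  exact (p.1 - γ).norm_coe_le_norm t

theorem contDiff_post_nat (m : ℕ) : ∀ {W : Type} [NormedAddCommGroup W] [NormedSpace ℝ W]
    {F : V → W} (hF : ContDiff ℝ ∞ F), ContDiff ℝ m (post F hF.continuous) := by
  induction m with
  | zero =>
    intro W _ _ F hF
    rw [show ((0 : ℕ) : WithTop ℕ∞) = 0 from rfl, contDiff_zero]
    exact ContinuousMap.continuous_postcomp ⟨F, hF.continuous⟩
  | succ m ih =>
    intro W _ _ F hF
    have h1 : ContDiff ℝ 1 F := hF.of_le (by simp)
    rw [show ((m + 1 : ℕ) : WithTop ℕ∞) = (m : WithTop ℕ∞) + 1 from rfl, contDiff_succ_iff_fderiv]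
    refine ⟨fun γ => (hasFDerivAt_post h1 γ).differentiableAt, by simp, ?_⟩
    rw [show fderiv ℝ (post F hF.continuous) = fun γ =>
        mult (post (fderiv ℝ F) (h1.continuous_fderiv one_ne_zero) γ) from
      funext fun γ => (hasFDerivAt_post h1 γ).fderiv]
    exact (ContinuousLinearMap.contDiff (𝕜 := ℝ) (E := Curves (V →L[ℝ] W)) (F := Curves V →L[ℝ] Curves W) (mult (V := V) (W := W))).comp (ih (hF.fderiv_right (m := ∞) le_rfl))

theorem contDiff_post {F : V → W} (hF : ContDiff ℝ ∞ F) : ContDiff ℝ ∞ (post F hF.continuous) :=
  contDiff_infty.2 fun m => contDiff_post_nat m hF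

/-- The constant curves. -/
def constC : V →L[ℝ] Curves V :=
  LinearMap.mkContinuous
    { toFun := fun a => ContinuousMap.const I a
      map_add' := fun a b => rfl
      map_smul' := fun c a => rfl } 1 fun a => by
        rw [one_mul, ContinuousMap.norm_le _ (norm_nonneg _)]
        exact fun _ => le_rfl

theorem constC_apply (a : V) (t : I) : constC a t = a := rfl

variable [CompleteSpace V]

/-- The primitive of a curve vanishing at zero. -/
def prim : Curves V →L[ℝ] Curves V :=
  LinearMap.mkContinuous
    { toFun := fun h => ⟨fun t => ∫ s in (0 : ℝ)..(t : ℝ), IccExtend zero_le_one h s,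
        (intervalIntegral.continuous_primitive
          (fun a b => (h.continuous.Icc_extend').intervalIntegrable a b) 0).comp continuous_subtype_val⟩
      map_add' := fun h h' => by
        ext t
        simp only [ContinuousMap.coe_mk, ContinuousMap.add_apply]
        rw [← intervalIntegral.integral_add (h.continuous.Icc_extend'.intervalIntegrable _ _)
          (h'.continuous.Icc_extend'.intervalIntegrable _ _)]
        exact intervalIntegral.integral_congr fun s _ => by simp [IccExtend]
      map_smul' := fun c h => by
        ext t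
        simp only [ContinuousMap.coe_mk, ContinuousMap.smul_apply, RingHom.id_apply]
        rw [← intervalIntegral.integral_smul]
        exact intervalIntegral.integral_congr fun s _ => by simp [IccExtend] }
    1 fun h => by
      rw [one_mul, ContinuousMap.norm_le _ (norm_nonneg _)]
      intro t
      refine (intervalIntegral.norm_integral_le_of_norm_le_const (C := ‖h‖) fun s _ =>
        h.norm_coe_le_norm _).trans ?_
      rw [sub_zero, abs_of_nonneg t.2.1]
      exact mul_le_of_le_one_right (norm_nonneg _) t.2.2

theorem prim_apply (h : Curves V) (t : I) :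
    prim h t = ∫ s in (0 : ℝ)..(t : ℝ), IccExtend zero_le_one h s := rfl

theorem norm_prim_le : ‖(prim : Curves V →L[ℝ] Curves V)‖ ≤ 1 :=
  LinearMap.mkContinuous_norm_le _ zero_le_one _

end

end Vale.Agent.P219.Six.Bridge
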